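import Vale.Agent.P181.MD.Spec
import Vale.Agent.P181.TS.H547.UAll

/-!
# P181, MD: random transversals (`UStmt`)

One uniformly random letter in every class (the samples of `TS.H547` with all numbers equal to 1).
-/

set_option autoImplicit false

namespace Vale.Agent.P181.MD.H761

open Finset Vale.Agent.P181.H59 Vale.Agent.P181.TS Vale.Agent.P181.TS.H547

/-- a random transversal -/
abbrev Tr {b m : ℕ} (cl : Fin b → Fin m) : Type := Smp cl (fun _ => 1)

section
variable {b m e : ℕ} {cl : Fin b → Fin m}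

theorem uni_inter (ω : Tr cl) (i : Fin m) : (uni ω ∩ cls cl i).card = 1 := by
  have h : uni ω ∩ cls cl i = (ω i : Finset (Fin b)) := by
    ext p
    rw [mem_inter, mem_uni, mem_cls]
    constructor
    · rintro ⟨h1, h2⟩
      subst h2
      exact h1
    · intro h1
      have h2 := mem_cls.1 (sub_cls ω i h1)
      subst h2
      exact ⟨h1, rfl⟩
  rw [h, card_j]

theorem card_tr (ω : Tr cl) : (uni ω).card = m := by
  rw [card_uni]
  simp

theorem tr_mem_le (he : 10 ^ 6 ≤ e) (hc : ∀ j, e ≤ (cls cl j).card) (p : Fin b) :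
    ((univ.filter fun ω : Tr cl => p ∈ uni ω).card : ℝ) ≤ 256 / e * Fintype.card (Tr cl) :=
  mem_le (n := fun _ => 1) e p he hc (fun _ => by norm_num)

theorem tr_avoid_ge (he : 10 ^ 6 ≤ e)
    (hR : 1000 * m ≤ e) (hc : ∀ j, e ≤ (cls cl j).card ∧ (cls cl j).card ≤ e + m)
    (T : Finset (Fin b)) (i : Fin m) (hT : T.card ≤ e + m)
    (hi : ∀ j, (T ∩ cls cl j).card ≤ (T ∩ cls cl i).card) :
    ((cls cl i \ T).card : ℝ) / (3 * Real.exp 770 * e) * Fintype.card (Tr cl) ≤
      ((univ.filter fun ω : Tr cl => Disjoint (uni ω) T).card : ℝ) := by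
  have heR : (10 ^ 6 : ℝ) ≤ e := by exact_mod_cast he
  have he0 : (0 : ℝ) < e := by linarith
  have hk : (0 : ℝ) ≤ (cls cl i \ T).card := Nat.cast_nonneg _
  have hei : (0 : ℝ) < (cls cl i).card := by
    have := (hc i).1
    exact_mod_cast (by omega : 0 < (cls cl i).card)
  have hei2 : ((cls cl i).card : ℝ) ≤ (3 / 2) * e := by
    have h5 : ((cls cl i).card : ℝ) ≤ e + m := by exact_mod_cast (hc i).2
    have h6 : (1000 : ℝ) * m ≤ e := by exact_mod_cast hR
    linarith
  have hq : ((cls cl i \ T).card : ℝ) / (3 * Real.exp 770 * e) ≤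
      ((cls cl i \ T).card : ℝ) / (cls cl i).card * Real.exp (-770) := by
    have h7 : ((cls cl i \ T).card : ℝ) / (3 * Real.exp 770 * e) =
        ((cls cl i \ T).card : ℝ) / (3 * e) * Real.exp (-770) := by
      rw [Real.exp_neg]
      have := Real.exp_pos 770
      field_simp
    rw [h7]
    apply mul_le_mul_of_nonneg_right _ (Real.exp_pos _).le
    exact div_le_div_of_nonneg_left hk hei (by linarith)
  have h1 := avoid_ge (n := fun _ => 1) e T i he hR hc hT hi (fun _ => by norm_num) rfl
  exact le_trans (mul_le_mul_of_nonneg_right hq (Nat.cast_nonneg _)) h1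

end

/-- **[MD-U]** -/
theorem uStmt_of (hG : GenCount) : Vale.Agent.P181.MD.UStmt := by
  obtain ⟨C0, hC0⟩ := exists_nat_ge (40 * (3 * Real.exp 770) + 2000)
  have hK : 0 < 3 * Real.exp 770 := by positivity
  set K : ℝ := 3 * Real.exp 770 with hKdef
  refine ⟨C0, ?_, ?_⟩
  · have : (1 : ℝ) ≤ C0 := by linarith
    exact_mod_cast this
  intro b m e NU cl hh2 hR he hc hNU
  classical
  have heR : (10 ^ 6 : ℝ) ≤ e := by exact_mod_cast he
  have he0 : (0 : ℝ) < e := by linarith
  have hC2 : (2000 : ℝ) ≤ C0 := by linarith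
  have hC3 : 40 * K ≤ C0 := by linarith
  have heb : e ≤ b := by
    refine le_trans (hc ⟨0, hh2⟩).1 ?_
    have := Finset.card_le_univ (cls cl ⟨0, hh2⟩)
    rwa [Fintype.card_fin] at this
  have hbR : (10 ^ 6 : ℝ) ≤ b := le_trans heR (by exact_mod_cast heb)
  have h2hb : (m : ℝ) ≤ b := by
    have : m ≤ b := by omega
    exact_mod_cast this
  have hl0 : 0 < Real.log ((b : ℝ) + 1) := Real.log_pos (by linarith)
  have hl1 : 1 ≤ Real.log ((b : ℝ) + 1) := by
    rw [Real.le_log_iff_exp_le (by linarith)]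
    have := Real.exp_one_lt_d9
    linarith
  have hNUe : (C0 : ℝ) * Real.log ((b : ℝ) + 1) ≤ NU / e := by
    rw [le_div_iff₀ he0]
    linarith
  -- the index set
  let G : Finset (Fin m × Finset (Fin b)) := univ.filter fun p =>
    p.2.card ≤ e + m ∧ (∀ j, (p.2 ∩ cls cl j).card ≤ (p.2 ∩ cls cl p.1).card) ∧
    (p.2 \ cls cl p.1).card ≤ 2 * (cls cl p.1 \ p.2).card ∧ 1 ≤ (cls cl p.1 \ p.2).card
  have hne : Nonempty (Tr cl) := by
    rw [← Fintype.card_pos_iff, card_smp]
    refine Finset.prod_pos fun j _ => Nat.choose_pos ?_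
    have h3 := (hc j).1
    omega
  have key := hG NU (fun _ => Tr cl) G (Fin b)
    (fun c p => univ.filter fun ω => Disjoint (uni ω) p.1.2)
    (fun p => (NU : ℝ) * (cls cl p.1.1 \ p.1.2).card / (K * e))
    (fun c p => univ.filter fun ω => p ∈ uni ω) (256 / e) (C0 * NU / e) (by positivity)
    (fun p => by positivity) ?_ ?_ ?_
  · obtain ⟨ω, hω1, hω2⟩ := key
    refine ⟨fun c => uni (ω c), fun c => card_tr _, fun c i => uni_inter _ i, fun p => ?_, ?_⟩
    · have h1 := hω2 p
      have h2 : dgr (fun c => uni (ω c)) p ≤ C0 * NU / e := by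
        refine le_trans (le_of_eq ?_) h1
        unfold dgr
        congr 1
        ext c
        simp
      calc e * dgr (fun c => uni (ω c)) p ≤ e * (C0 * NU / e) := Nat.mul_le_mul_left _ h2
        _ ≤ C0 * NU := Nat.mul_div_le _ _
    · intro T i hT hi hs
      rcases Nat.eq_zero_or_pos (cls cl i \ T).card with h0 | h0
      · rw [h0, Nat.mul_zero]
        exact Nat.zero_le _
      · have hmem : (i, T) ∈ G := by
          simp only [G, mem_filter, mem_univ, true_and]
          exact ⟨hT, hi, hs, h0⟩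
        have h1 := hω1 ⟨(i, T), hmem⟩
        simp only at h1
        have h2 : (univ.filter fun c => ω c ∈ (univ.filter fun ω : Tr cl =>
            Disjoint (uni ω) T)).card = (univ.filter fun c => Disjoint (uni (ω c)) T).card := by
          congr 1
          ext c
          simp
        rw [h2, div_le_iff₀ (by positivity)] at h1
        have h3 : (NU : ℝ) * (cls cl i \ T).card ≤
            C0 * e * (univ.filter fun c => Disjoint (uni (ω c)) T).card := by
          refine le_trans h1 ?_
          have h4 : (0 : ℝ) ≤ e * (univ.filter fun c => Disjoint (uni (ω c)) T).card := by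
            positivity
          have h5 : 8 * K ≤ C0 := by linarith
          nlinarith
        exact_mod_cast h3
  · -- expected numbers of misses
    intro p
    have hp := p.2
    simp only [G, mem_filter, mem_univ, true_and] at hp
    have h1 : ∀ c ∈ (univ : Finset (Fin NU)), ((cls cl p.1.1 \ p.1.2).card : ℝ) / (K * e) ≤
        ((univ.filter fun ω : Tr cl => Disjoint (uni ω) p.1.2).card : ℝ) /
          Fintype.card (Tr cl) := by
      intro c _
      have hpos : (0 : ℝ) < Fintype.card (Tr cl) := by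
        exact_mod_cast Fintype.card_pos
      rw [le_div_iff₀ hpos]
      exact tr_avoid_ge he hR hc p.1.2 p.1.1 hp.1 hp.2.1
    have h2 := Finset.card_nsmul_le_sum _ _ _ h1
    rw [card_univ, Fintype.card_fin, nsmul_eq_mul, ← mul_div_assoc] at h2
    exact h2
  · intro c p
    exact tr_mem_le he (fun j => (hc j).1) p
  · -- the union bound
    set x : ℝ := Real.exp (-(3 * Real.log ((b : ℝ) + 1))) with hx
    have hx0 : 0 < x := Real.exp_pos _
    have hxv : x = (((b : ℝ) + 1) ^ 3)⁻¹ := by
      rw [hx, Real.exp_neg]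
      congr 1
      rw [show (3 : ℝ) * Real.log ((b : ℝ) + 1) = ((3 : ℕ) : ℝ) * Real.log ((b : ℝ) + 1) by
        norm_num, Real.exp_nat_mul, Real.exp_log (by linarith)]
    have hbx : (b : ℝ) * x ≤ 1 / ((b : ℝ) + 1) ^ 2 := by
      rw [hxv, ← div_eq_mul_inv, div_le_div_iff₀ (by positivity) (by positivity)]
      have : (0 : ℝ) ≤ ((b : ℝ) + 1) ^ 2 := by positivity
      nlinarith
    have hbig : (1 : ℝ) / ((b : ℝ) + 1) ^ 2 ≤ 1 := by
      rw [div_le_one (by positivity)]
      nlinarith
    have hS1 : ∑ p : G, Real.exp (-((NU : ℝ) * (cls cl p.1.1 \ p.1.2).card / (K * e) / 4)) ≤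
        1 / 4 := by
      have h1 : ∀ p : G, Real.exp (-((NU : ℝ) * (cls cl p.1.1 \ p.1.2).card / (K * e) / 4)) ≤
          x ^ (symmDiff (cls cl p.1.1) p.1.2).card := by
        intro p
        have hp := p.2
        simp only [G, mem_filter, mem_univ, true_and] at hp
        obtain ⟨-, -, hp3, hp4⟩ := hp
        rw [hx, ← Real.exp_nat_mul]
        apply Real.exp_le_exp.2
        have h2 : (symmDiff (cls cl p.1.1) p.1.2).card ≤ 3 * (cls cl p.1.1 \ p.1.2).card := by
          rw [symmDiff_def]
          refine le_trans (Finset.card_union_le _ _) ?_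
          omega
        have h2R : ((symmDiff (cls cl p.1.1) p.1.2).card : ℝ) ≤
            3 * (cls cl p.1.1 \ p.1.2).card := by exact_mod_cast h2
        have hk0 : (0 : ℝ) ≤ (cls cl p.1.1 \ p.1.2).card := Nat.cast_nonneg _
        have h3 : (NU : ℝ) * (cls cl p.1.1 \ p.1.2).card / (K * e) / 4 =
            (NU / e) * ((cls cl p.1.1 \ p.1.2).card / (4 * K)) := by
          field_simp
        rw [h3]
        have h4 : (C0 : ℝ) * Real.log ((b : ℝ) + 1) * ((cls cl p.1.1 \ p.1.2).card / (4 * K)) ≤
            (NU / e) * ((cls cl p.1.1 \ p.1.2).card / (4 * K)) :=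
          mul_le_mul_of_nonneg_right hNUe (by positivity)
        have h5 : 9 * ((cls cl p.1.1 \ p.1.2).card : ℝ) ≤
            C0 * ((cls cl p.1.1 \ p.1.2).card / (4 * K)) := by
          rw [← mul_div_assoc, le_div_iff₀ (by positivity)]
          nlinarith
        have h6 : 9 * ((cls cl p.1.1 \ p.1.2).card : ℝ) * Real.log ((b : ℝ) + 1) ≤
            C0 * ((cls cl p.1.1 \ p.1.2).card / (4 * K)) * Real.log ((b : ℝ) + 1) :=
          mul_le_mul_of_nonneg_right h5 hl0.le
        have h7 : ((symmDiff (cls cl p.1.1) p.1.2).card : ℝ) * (3 * Real.log ((b : ℝ) + 1)) ≤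
            3 * (cls cl p.1.1 \ p.1.2).card * (3 * Real.log ((b : ℝ) + 1)) :=
          mul_le_mul_of_nonneg_right h2R (by positivity)
        linarith
      have h8 : ∑ p : G, x ^ (symmDiff (cls cl p.1.1) p.1.2).card =
          ∑ p ∈ G, x ^ (symmDiff (cls cl p.1) p.2).card :=
        Finset.sum_coe_sort G (fun p => x ^ (symmDiff (cls cl p.1) p.2).card)
      have h9 : ∑ p ∈ G, x ^ (symmDiff (cls cl p.1) p.2).card ≤
          ∑ p : Fin m × Finset (Fin b),
            (if p.2 ≠ cls cl p.1 then x ^ (symmDiff (cls cl p.1) p.2).card else 0) := by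
        rw [← Finset.sum_filter]
        refine Finset.sum_le_sum_of_subset_of_nonneg ?_ fun _ _ _ => by positivity
        intro p hp
        simp only [G, mem_filter, mem_univ, true_and] at hp ⊢
        intro h10
        rw [h10] at hp
        simp at hp
      have h10 : ∑ p : Fin m × Finset (Fin b),
            (if p.2 ≠ cls cl p.1 then x ^ (symmDiff (cls cl p.1) p.2).card else 0) =
          (m : ℝ) * ((x + 1) ^ b - 1) := by
        rw [Fintype.sum_prod_type]
        simp only
        rw [Finset.sum_congr rfl fun i _ => sum_ne (cls cl i) x]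
        rw [Finset.sum_const, card_univ, Fintype.card_fin, nsmul_eq_mul]
      have h11 : (x + 1) ^ b - 1 ≤ 2 * (b * x) := pow_sub_one_le x hx0.le (by linarith)
      have h12 : (0 : ℝ) ≤ m := by positivity
      have h13 : (m : ℝ) * ((x + 1) ^ b - 1) ≤ b * (2 * (1 / ((b : ℝ) + 1) ^ 2)) := by
        calc (m : ℝ) * ((x + 1) ^ b - 1) ≤ (m : ℝ) * (2 * (b * x)) :=
              mul_le_mul_of_nonneg_left h11 h12
          _ ≤ b * (2 * (b * x)) := mul_le_mul_of_nonneg_right h2hb (by positivity)
          _ ≤ _ := by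
              apply mul_le_mul_of_nonneg_left _ (by positivity)
              linarith
      have h14 : (b : ℝ) * (2 * (1 / ((b : ℝ) + 1) ^ 2)) ≤ 1 / 4 := by
        rw [show (b : ℝ) * (2 * (1 / ((b : ℝ) + 1) ^ 2)) = (2 * b) / ((b : ℝ) + 1) ^ 2 by ring,
          div_le_div_iff₀ (by positivity) (by norm_num)]
        nlinarith
      have h15 : ∑ p : G, Real.exp (-((NU : ℝ) * (cls cl p.1.1 \ p.1.2).card / (K * e) / 4)) ≤
          ∑ p : G, x ^ (symmDiff (cls cl p.1.1) p.1.2).card :=
        Finset.sum_le_sum fun p _ => h1 p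
      linarith
    have hS2 : (Fintype.card (Fin b) : ℝ) *
        (3 * NU * (256 / e) / (((C0 * NU / e : ℕ) : ℝ) + 1)) ^ (C0 * NU / e + 1) ≤ 1 / 4 := by
      set P : ℕ := C0 * NU / e with hP
      have hP1 : (C0 : ℝ) * (NU / e) ≤ (P : ℝ) + 1 := by
        have h1 : C0 * NU < e * (P + 1) := by
          rw [hP]
          exact Nat.lt_mul_div_succ _ (by omega)
        have h2 : (C0 : ℝ) * NU < e * ((P : ℝ) + 1) := by exact_mod_cast h1
        rw [← mul_div_assoc, div_le_iff₀ he0]
        linarith
      have hNe : 0 ≤ (NU : ℝ) / e := by positivity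
      have hbase : 3 * (NU : ℝ) * (256 / e) / ((P : ℝ) + 1) ≤ 1 / 2 := by
        rw [div_le_iff₀ (by positivity)]
        have h3 : 3 * (NU : ℝ) * (256 / e) = 768 * (NU / e) := by ring
        rw [h3]
        nlinarith
      have hb0 : 0 ≤ 3 * (NU : ℝ) * (256 / e) / ((P : ℝ) + 1) := by positivity
      have h4 : (3 * (NU : ℝ) * (256 / e) / ((P : ℝ) + 1)) ^ (P + 1) ≤
          Real.exp (-(2 * Real.log ((b : ℝ) + 1))) := by
        have h5 : (3 * (NU : ℝ) * (256 / e) / ((P : ℝ) + 1)) ≤ Real.exp (-(1 / 2)) := by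
          have := Real.add_one_le_exp (-(1 / 2) : ℝ)
          linarith
        refine le_trans (pow_le_pow_left₀ hb0 h5 (P + 1)) ?_
        rw [← Real.exp_nat_mul]
        apply Real.exp_le_exp.2
        push_cast
        have h6 : 4 * Real.log ((b : ℝ) + 1) ≤ (P : ℝ) + 1 := by
          have h7 : (2000 : ℝ) * (NU / e) ≤ C0 * (NU / e) := mul_le_mul_of_nonneg_right hC2 hNe
          have h8 : (2000 : ℝ) * Real.log ((b : ℝ) + 1) ≤ C0 * Real.log ((b : ℝ) + 1) :=
            mul_le_mul_of_nonneg_right hC2 hl0.le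
          linarith
        linarith
      have h9 : Real.exp (-(2 * Real.log ((b : ℝ) + 1))) = (((b : ℝ) + 1) ^ 2)⁻¹ := by
        rw [Real.exp_neg]
        congr 1
        rw [show (2 : ℝ) * Real.log ((b : ℝ) + 1) = ((2 : ℕ) : ℝ) * Real.log ((b : ℝ) + 1) by
          norm_num, Real.exp_nat_mul, Real.exp_log (by linarith)]
      rw [Fintype.card_fin]
      calc (b : ℝ) * (3 * NU * (256 / e) / ((P : ℝ) + 1)) ^ (P + 1)
          ≤ b * (((b : ℝ) + 1) ^ 2)⁻¹ := by
            rw [← h9]
            exact mul_le_mul_of_nonneg_left h4 (by positivity)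
        _ ≤ 1 / 4 := by
            rw [← div_eq_mul_inv, div_le_div_iff₀ (by positivity) (by norm_num)]
            nlinarith
    have hfin := add_le_add hS1 hS2
    refine lt_of_le_of_lt hfin (by norm_num)

/-- **[MD-U]**, unconditional -/
theorem uStmt : Vale.Agent.P181.MD.UStmt := uStmt_of H935.genCount

end Vale.Agent.P181.MD.H761
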